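import Vale.Agent.P101.Final

/-!
# P095: reindexing finitely many central classes to mutually commuting central classes
-/

noncomputable section

namespace Vale.Agent.P095

open Filter Topology BoundedContinuousFunction Vale.Agent.P101

universe u

variable {A : Type u} [CStarAlgebra A] {ω : Filter ℕ}

/-- Composition of a bounded sequence with a map of the indices. -/
def reK (k : C(ℕ, ℕ)) : (ℕ →ᵇ A) →⋆ₐ[ℂ] (ℕ →ᵇ A) where
  toFun f := f.compContinuous k
  map_one' := rfl
  map_mul' _ _ := rfl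
  map_zero' := rfl
  map_add' _ _ := rfl
  commutes' _ := rfl
  map_star' _ := rfl

@[simp] theorem reK_apply (k : C(ℕ, ℕ)) (f : ℕ →ᵇ A) (n : ℕ) : reK k f n = f (k n) := rfl

/-- The class of a reindexed sequence. -/
def reMk (k : C(ℕ, ℕ)) : (ℕ →ᵇ A) →⋆ₐ[ℂ] SeqQuot A atTop :=
  (seqMk A atTop).comp (reK k)

theorem reMk_apply (k : C(ℕ, ℕ)) (f : ℕ →ᵇ A) : reMk k f = seqMk A atTop (reK k f) := rfl

theorem norm_reMk_le (k : C(ℕ, ℕ)) (f : ℕ →ᵇ A) {C : ℝ} (hC : 0 ≤ C) (h : ∀ n, ‖f n‖ ≤ C) :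
    ‖reMk k f‖ ≤ C :=
  (norm_seqMk_le _).trans ((BoundedContinuousFunction.norm_le hC).2 fun n => h (k n))

/-- Finitely many central classes along `ω` and countably many null sequences along `ω` can be
reindexed, `m` times over, to central classes along `atTop` which *-commute for different
copies, the null sequences staying null. -/
theorem exists_reindex [TopologicalSpace.SeparableSpace A] [ω.NeBot] {ι κ : Type*} [Finite ι]
    [Countable κ] (F : ι → ℕ →ᵇ A) (hF : ∀ i, seqMk A ω (F i) ∈ centSub A ω)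
    (R : κ → ℕ →ᵇ A) (hR : ∀ i, seqMk A ω (R i) = 0) (m : ℕ) :
    ∃ k : Fin m → C(ℕ, ℕ), (∀ s i, reMk (k s) (F i) ∈ centSub A atTop) ∧
      (∀ s i, reMk (k s) (R i) = 0) ∧
      ∀ s t, s ≠ t → ∀ i l, StarCommute (reMk (k s) (F i)) (reMk (k t) (F l)) := by
  obtain ⟨a, ha⟩ := TopologicalSpace.exists_dense_seq A
  let η : ℕ → ℝ := fun n => 1 / ((n : ℝ) + 1)
  have hη : ∀ n, 0 < η n := fun n => by positivity
  have hη0 : Tendsto η atTop (𝓝 0) := tendsto_one_div_add_atTop_nhds_zero_nat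
  obtain ⟨e, he⟩ := exists_surjective_nat (Option κ)
  let R' : Option κ → ℕ →ᵇ A := fun o => o.elim 0 R
  have hR' : ∀ i, seqMk A ω (R' i) = 0 := by
    rintro (_ | i)
    exacts [map_zero _, hR i]
  have hP : ∀ n, ∀ᶠ j in ω, ∀ p ∈ Set.Iic n, ‖R' (e p) j‖ < η n := fun n =>
    (Set.finite_Iic n).eventually_all.2 fun p _ =>
      (seqMk_eq_zero.1 (hR' (e p))).eventually (gt_mem_nhds (hη n))
  choose k hk1 hk2 hk3 using fun n => exists_picks F hF _ (hP n) a n (hη n) m
  let K : Fin m → C(ℕ, ℕ) := fun s => ⟨fun n => k n s, continuous_of_discreteTopology⟩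
  have lim : ∀ f : ℕ →ᵇ A, (∀ n, ‖f n‖ ≤ η n) → seqMk A atTop f = 0 := fun f hf =>
    seqMk_eq_zero.2 (squeeze_zero (fun n => norm_nonneg _) hf hη0)
  refine ⟨K, fun s i => ?_, fun s i => ?_, fun s t hst i l => ?_⟩
  · rw [reMk_apply, mem_centSub]
    intro b
    rw [Metric.tendsto_nhds]
    intro ε hε
    have hM : 0 < ε / (4 * (‖F i‖ + 1)) := by positivity
    obtain ⟨p, hp⟩ := ha.exists_dist_lt b hM
    filter_upwards [eventually_ge_atTop p, hη0.eventually (gt_mem_nhds (half_pos hε))] with n h1 h2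
    rw [Real.dist_eq, sub_zero, abs_of_nonneg (norm_nonneg _)]
    show ‖b * F i (k n s) - F i (k n s) * b‖ < ε
    set z := F i (k n s) with hz
    have hc := hk2 n s i p h1
    have hX : ‖z‖ ≤ ‖F i‖ + 1 := ((F i).norm_coe_le_norm _).trans (by linarith)
    rw [dist_eq_norm] at hp
    have key : b * z - z * b = ((b - a p) * z - z * (b - a p)) + (a p * z - z * a p) := by
      noncomm_ring
    have e1 : ‖(b - a p) * z‖ ≤ ε / (4 * (‖F i‖ + 1)) * (‖F i‖ + 1) :=
      (norm_mul_le _ _).trans (mul_le_mul hp.le hX (norm_nonneg _) hM.le)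
    have e2 : ‖z * (b - a p)‖ ≤ ε / (4 * (‖F i‖ + 1)) * (‖F i‖ + 1) := by
      refine (norm_mul_le _ _).trans ?_
      rw [mul_comm]
      exact mul_le_mul hp.le hX (norm_nonneg _) hM.le
    have e3 := norm_sub_le ((b - a p) * z) (z * (b - a p))
    have hval : ε / (4 * (‖F i‖ + 1)) * (‖F i‖ + 1) = ε / 4 := by field_simp
    rw [key]
    refine (norm_add_le _ _).trans_lt ?_
    linarith
  · obtain ⟨p, hp⟩ := he (some i)
    refine seqMk_eq_zero.2 (squeeze_zero' (Eventually.of_forall fun n => norm_nonneg _) ?_ hη0)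
    filter_upwards [eventually_ge_atTop p] with n hn
    have := hk1 n s p hn
    rw [hp] at this
    exact this.le
  · have main : ∀ s t, t < s → ∀ i l,
        Commute (reMk (K t) (F l)) (reMk (K s) (F i)) ∧
          Commute (star (reMk (K t) (F l))) (reMk (K s) (F i)) := by
      intro s t hts i l
      simp only [reMk_apply, Commute, SemiconjBy, ← map_star, ← map_mul, ← sub_eq_zero (b := seqMk A atTop _),
        ← map_sub]
      exact ⟨lim _ fun n => ((hk3 n s t hts i l).1).le, lim _ fun n => ((hk3 n s t hts i l).2).le⟩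
    rcases lt_or_gt_of_ne hst with h | h
    · exact ⟨(main t s h l i).1, by simpa using ((main t s h l i).2).star_star⟩
    · exact ⟨(main s t h i l).1.symm, (main s t h i l).2.symm⟩

end Vale.Agent.P095
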