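import Vale.Agent.P095.Base
import Vale.Agent.P095.Outer.Reindex

/-!
# P095: the induced action on central sequence algebras, invariant states from characters of
fixed algebras, commuting translates of square-zero families
-/

noncomputable section

namespace Vale.Agent.P095

open Filter Topology BoundedContinuousFunction Vale.Agent.P101

universe u v

/-- A square-zero family in a closed subalgebra is one in the ambient algebra. -/
theorem sqZeroFamily_coe {B : Type u} [CStarAlgebra B] [PartialOrder B] [StarOrderedRing B]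
    (S : StarSubalgebra ℂ B) [IsClosed (S : Set B)] {N : ℕ} {δ : ℝ} {x : Fin N → S}
    (hx : SqZeroFamily δ x) : SqZeroFamily δ fun j => (x j : B) := by
  refine ⟨fun j => congrArg Subtype.val (hx.sq j), hx.norm_le, ?_⟩
  have h := hx.bound
  rw [← Subtype.coe_le_coe] at h
  simpa [Algebra.algebraMap_eq_smul_one] using h

/-- A square-zero family seen in a closed subalgebra containing it. -/
theorem sqZeroFamily_codRestrict {B : Type u} [CStarAlgebra B] [PartialOrder B] [StarOrderedRing B]
    (S : StarSubalgebra ℂ B) [IsClosed (S : Set B)] {N : ℕ} {δ : ℝ} {x : Fin N → B}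
    (hx : SqZeroFamily δ x) (hS : ∀ j, x j ∈ S) :
    SqZeroFamily δ fun j => (⟨x j, hS j⟩ : S) := by
  refine ⟨fun j => Subtype.ext (hx.sq j), hx.norm_le, ?_⟩
  show ((algebraMap ℝ S δ : S) : B) ≤ _
  simpa [Algebra.algebraMap_eq_smul_one] using hx.bound

section Average

variable {Q : Type v} [Group Q] [Fintype Q] {C : Type u} [CStarAlgebra C] (β : Q → C →⋆ₐ[ℂ] C)
  (hmul : ∀ g h x, β (g * h) x = β g (β h x))

/-- The average over the group, into the fixed algebra. -/
def fixAvg : C →ₗ[ℂ] fixSub β :=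
  LinearMap.codRestrict (fixSub β).toSubalgebra.toSubmodule
    ((Fintype.card Q : ℂ)⁻¹ • ∑ g, (β g).toAlgHom.toLinearMap) (fun x => by
      show _ ∈ fixSub β
      rw [mem_fixSub]
      intro h
      simp only [LinearMap.smul_apply, LinearMap.coe_sum, Finset.sum_apply, AlgHom.toLinearMap_apply,
        StarAlgHom.coe_toAlgHom, map_smul, map_sum, ← hmul]
      congr 1
      exact Fintype.sum_bijective (fun g => h * g) (Group.mulLeft_bijective h) _ _ fun g => rfl)

theorem fixAvg_coe (x : C) :
    (fixAvg β hmul x : C) = (Fintype.card Q : ℂ)⁻¹ • ∑ g, β g x := by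
  show ((Fintype.card Q : ℂ)⁻¹ • ∑ g, (β g).toAlgHom.toLinearMap) x = _
  simp

theorem fixAvg_of_fixed {x : C} (hx : ∀ g, β g x = x) :
    fixAvg β hmul x = ⟨x, mem_fixSub.2 hx⟩ := by
  refine Subtype.ext ?_
  rw [fixAvg_coe]
  simp only [hx, Finset.sum_const, Finset.card_univ, ← Nat.cast_smul_eq_nsmul ℂ, smul_smul]
  rw [inv_mul_cancel₀ (Nat.cast_ne_zero.2 Fintype.card_ne_zero), one_smul]

theorem fixAvg_act (h : Q) (x : C) : fixAvg β hmul (β h x) = fixAvg β hmul x := by
  refine Subtype.ext ?_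
  simp only [fixAvg_coe, ← hmul]
  congr 1
  exact Fintype.sum_bijective (fun g => g * h) (Group.mulRight_bijective h) _ _ fun g => rfl

theorem fixAvg_nonneg (x : C) : ∃ t : fixSub β, fixAvg β hmul (star x * x) = star t * t := by
  let _ : PartialOrder C := CStarAlgebra.spectralOrder C
  let _ : StarOrderedRing C := CStarAlgebra.spectralOrderedRing C
  suffices h0 : (0 : C) ≤ (fixAvg β hmul (star x * x) : C) by
    set a := (fixAvg β hmul (star x * x) : C) with ha
    refine ⟨⟨cfc Real.sqrt a, cfc_mem (𝕜' := ℂ) Real.sqrt (fixAvg β hmul (star x * x)).2⟩,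
      Subtype.ext ?_⟩
    show a = star (cfc Real.sqrt a) * cfc Real.sqrt a
    rw [(cfc_predicate Real.sqrt a).star_eq, ← cfc_mul _ _ _ (by fun_prop) (by fun_prop)]
    conv_lhs => rw [← cfc_id' ℝ a (IsSelfAdjoint.of_nonneg h0)]
    exact cfc_congr fun t ht => (Real.mul_self_sqrt (spectrum_nonneg_of_nonneg h0 ht)).symm
  rw [fixAvg_coe, show (Fintype.card Q : ℂ)⁻¹ = (((Fintype.card Q : ℝ)⁻¹ : ℝ) : ℂ) by simp,
    Complex.coe_smul]
  refine smul_nonneg (by positivity) (Finset.sum_nonneg fun g _ => ?_)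
  rw [map_mul, map_star]
  exact star_mul_self_nonneg _

/-- A character of the fixed algebra gives an invariant state upstream. -/
def charSetup {B : Type u} [CStarAlgebra B] (act : Q → B →⋆ₐ[ℂ] B) (h1 : ∀ b, act 1 b = b)
    (h2 : ∀ g h b, act (g * h) b = act g (act h b)) (q : B →⋆ₐ[ℂ] C)
    (hq : ∀ g b, q (act g b) = β g (q b)) (χ : fixSub β →⋆ₐ[ℂ] ℂ) : Setup Q B where
  act := act
  act_one := h1
  act_mul := h2
  state := χ.toAlgHom.toLinearMap.comp ((fixAvg β hmul).comp q.toAlgHom.toLinearMap)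
  state_one := by
    show χ (fixAvg β hmul (q 1)) = 1
    rw [map_one, fixAvg_of_fixed β hmul (fun g => map_one _)]
    exact map_one χ
  state_nonneg b := by
    show ∃ r : ℝ, 0 ≤ r ∧ χ (fixAvg β hmul (q (star b * b))) = (r : ℂ)
    obtain ⟨t, ht⟩ := fixAvg_nonneg β hmul (q b)
    rw [map_mul, map_star, ht, map_mul, map_star]
    exact ⟨Complex.normSq (χ t), Complex.normSq_nonneg _, (Complex.normSq_eq_conj_mul_self).symm⟩
  state_act g b := by
    show χ (fixAvg β hmul (q (act g b))) = χ (fixAvg β hmul (q b))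
    rw [hq, fixAvg_act]
  state_sq b hb := by
    show χ (fixAvg β hmul (q (star b * b))) =
      star (χ (fixAvg β hmul (q b))) * χ (fixAvg β hmul (q b))
    have e1 : ∀ g, β g (q b) = q b := fun g => by rw [← hq, hb g]
    have e2 : ∀ g, β g (q (star b * b)) = q (star b * b) :=
      fun g => by rw [map_mul, map_star, map_mul, map_star, e1 g]
    rw [fixAvg_of_fixed β hmul e1, fixAvg_of_fixed β hmul e2, ← map_star, ← map_mul]
    congr 1
    refine Subtype.ext ?_
    show q (star b * b) = star (q b) * q b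
    rw [map_mul, map_star]

end Average

variable {A : Type u} [CStarAlgebra A]

theorem centStarOrdered {F : Filter ℕ} :
    @StarOrderedRing (centSub A F) _ (centOrder (A := A) (F := F)) _ :=
  CStarAlgebra.spectralOrderedRing _

attribute [local instance] centOrder centStarOrdered

/-- An automorphism of `A` on the central sequence algebra along `F`. -/
def centAct (F : Filter ℕ) (e : A ≃⋆ₐ[ℂ] A) : centSub A F →⋆ₐ[ℂ] centSub A F :=
  StarAlgHom.codRestrict ((seqAct F e.toStarAlgHom).comp (centSub A F).subtype) (centSub A F) (by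
    rintro ⟨x, hx⟩
    obtain ⟨f, rfl⟩ := seqMk_surjective x
    show seqAct F e.toStarAlgHom (seqMk A F f) ∈ _
    rw [seqAct_mk, mem_centSub]
    intro a
    refine squeeze_zero (fun n => norm_nonneg _) (fun n => ?_) (mem_centSub.1 hx (e.symm a))
    show ‖a * e (f n) - e (f n) * a‖ ≤ _
    have h := NonUnitalStarAlgHom.norm_apply_le e.toStarAlgHom (e.symm a * f n - f n * e.symm a)
    simpa using h)

@[simp] theorem centAct_coe (F : Filter ℕ) (e : A ≃⋆ₐ[ℂ] A) (x : centSub A F) :
    (centAct F e x : SeqQuot A F) = seqAct F e.toStarAlgHom (x : SeqQuot A F) := rfl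

theorem seqComp_aut_one (f : ℕ →ᵇ A) : seqComp (1 : A ≃⋆ₐ[ℂ] A).toStarAlgHom f = f := by
  ext n; simp

theorem centAct_one (F : Filter ℕ) (x : centSub A F) : centAct F (1 : A ≃⋆ₐ[ℂ] A) x = x := by
  obtain ⟨x, hx⟩ := x
  obtain ⟨f, rfl⟩ := seqMk_surjective x
  refine Subtype.ext ?_
  show seqMk A F (seqComp _ f) = _
  rw [seqComp_aut_one]

theorem centAct_mul (F : Filter ℕ) (e e' : A ≃⋆ₐ[ℂ] A) (x : centSub A F) :
    centAct F (e * e') x = centAct F e (centAct F e' x) := by
  obtain ⟨x, hx⟩ := x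
  obtain ⟨f, rfl⟩ := seqMk_surjective x
  exact Subtype.ext rfl

/-- Passing to a finer filter. -/
def filtMap {F F' : Filter ℕ} (h : F' ≤ F) : SeqQuot A F →⋆ₐ[ℂ] SeqQuot A F' where
  toAlgHom := Ideal.Quotient.liftₐ (nullSeq A F) (seqMk A F').toAlgHom fun _ hf =>
    seqMk_eq_zero.2 (Tendsto.mono_left hf h)
  map_star' x := by
    obtain ⟨f, rfl⟩ := seqMk_surjective x
    show seqMk A F' (star f) = star (seqMk A F' f)
    rw [map_star]

/-- Passing to a finer filter on central classes. -/
def centMap {F F' : Filter ℕ} (h : F' ≤ F) : centSub A F →⋆ₐ[ℂ] centSub A F' :=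
  StarAlgHom.codRestrict ((filtMap h).comp (centSub A F).subtype) (centSub A F') (by
    rintro ⟨x, hx⟩
    obtain ⟨f, rfl⟩ := seqMk_surjective x
    exact mem_centSub.2 fun a => (mem_centSub.1 hx a).mono_left h)

theorem centMap_centAct {F F' : Filter ℕ} (h : F' ≤ F) (e : A ≃⋆ₐ[ℂ] A) (x : centSub A F) :
    centMap h (centAct F e x) = centAct F' e (centMap h x) := by
  obtain ⟨x, hx⟩ := x
  obtain ⟨f, rfl⟩ := seqMk_surjective x
  exact Subtype.ext rfl

/-- Square-zero families along `ω` give any number of square-zero families along `atTop` whose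
translates *-commute across different copies, and which inherit countably many symmetries. -/
theorem exists_translate_slots [TopologicalSpace.SeparableSpace A] {ω : Filter ℕ} [ω.NeBot]
    {ι κ : Type*} [Finite ι] [Countable κ] (σ : ι → A ≃⋆ₐ[ℂ] A) (τ : κ → A ≃⋆ₐ[ℂ] A)
    {N : ℕ} {δ : ℝ} {x : Fin N → centSub A ω} (hx : SqZeroFamily δ x)
    (hτ : ∀ i j, centAct ω (τ i) (x j) = x j) (m : ℕ) :
    ∃ X : Fin m → Fin N → centSub A atTop, (∀ s, SqZeroFamily δ (X s)) ∧
      (∀ s t, s ≠ t → ∀ i j, StarCommute (X s i) (X t j) ∧ ∀ g h,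
        StarCommute (centAct atTop (σ g) (X s i)) (centAct atTop (σ h) (X t j))) ∧
      ∀ s i j, centAct atTop (τ i) (X s j) = X s j := by
  obtain ⟨c, hc⟩ := sqrtRep hx
  choose f hf hf1 using fun j => exists_contraction_rep (x := (x j : SeqQuot A ω)) (hx.norm_le j)
  obtain ⟨h, hh⟩ := seqMk_surjective (c : SeqQuot A ω)
  let F : Option (Fin N ⊕ ι × Fin N) → ℕ →ᵇ A := fun o =>
    o.elim h (Sum.elim f fun p => seqComp (σ p.1).toStarAlgHom (f p.2))
  have hF : ∀ i, seqMk A ω (F i) ∈ centSub A ω := by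
    rintro (_ | j | ⟨g, j⟩)
    · show seqMk A ω h ∈ _; rw [hh]; exact c.2
    · show seqMk A ω (f j) ∈ _; rw [hf]; exact (x j).2
    · show seqMk A ω (seqComp (σ g).toStarAlgHom (f j)) ∈ _
      rw [← seqAct_mk, hf]
      exact (centAct ω (σ g) (x j)).2
  let rel : ℕ →ᵇ A := ∑ j, star (f j) * f j - algebraMap ℂ (ℕ →ᵇ A) δ - star h * h
  let R : Option (Fin N ⊕ κ × Fin N) → ℕ →ᵇ A := fun o =>
    o.elim rel (Sum.elim (fun j => f j * f j) fun p => seqComp (τ p.1).toStarAlgHom (f p.2) - f p.2)
  have hR : ∀ i, seqMk A ω (R i) = 0 := by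
    rintro (_ | j | ⟨i, j⟩)
    · have e := congrArg Subtype.val hc
      show seqMk A ω rel = 0
      simp only [rel, map_sub, map_sum, map_mul, map_star, hf, hh, AlgHomClass.commutes]
      push_cast at e ⊢
      rw [sub_eq_zero]
      exact e
    · show seqMk A ω (f j * f j) = 0
      rw [map_mul, hf]
      exact congrArg Subtype.val (hx.sq j)
    · show seqMk A ω (seqComp (τ i).toStarAlgHom (f j) - f j) = 0
      rw [map_sub, ← seqAct_mk, hf, ← centAct_coe, hτ i j, sub_self]
  obtain ⟨k, hkF, hkR, hkC⟩ := exists_reindex F hF R hR m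
  let X : Fin m → Fin N → centSub A atTop := fun s j => ⟨_, hkF s (some (Sum.inl j))⟩
  refine ⟨X, fun s => ⟨fun j => Subtype.ext ?_, fun j => ?_, ?_⟩,
    fun s t hst i j => ⟨?_, fun g g' => ?_⟩, fun s i j => Subtype.ext ?_⟩
  · show reMk (k s) (f j) * reMk (k s) (f j) = 0
    rw [← map_mul]
    exact hkR s (some (Sum.inl j))
  · exact norm_reMk_le _ _ zero_le_one (hf1 j)
  · rw [← sub_nonneg, CStarAlgebra.nonneg_iff_eq_star_mul_self]
    refine ⟨⟨_, hkF s none⟩, Subtype.ext ?_⟩
    push_cast
    show ∑ j, star (reMk (k s) (f j)) * reMk (k s) (f j) - algebraMap ℝ (SeqQuot A atTop) δ =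
      star (reMk (k s) h) * reMk (k s) h
    rw [IsScalarTower.algebraMap_apply ℝ ℂ (SeqQuot A atTop), ← sub_eq_zero]
    have := hkR s none
    simpa only [R, Option.elim, rel, map_sub, map_sum, map_mul, map_star, AlgHomClass.commutes,
      Complex.coe_algebraMap] using this
  · have h2 := hkC s t hst (some (Sum.inl i)) (some (Sum.inl j))
    exact ⟨Subtype.ext h2.1, Subtype.ext h2.2⟩
  · have h2 := hkC s t hst (some (Sum.inr (g, i))) (some (Sum.inr (g', j)))
    exact ⟨Subtype.ext h2.1, Subtype.ext h2.2⟩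
  · show reMk (k s) (seqComp (τ i).toStarAlgHom (f j)) = reMk (k s) (f j)
    rw [← sub_eq_zero, ← map_sub]
    exact hkR s (some (Sum.inr (i, j)))

variable {G : Type v} [Group G]

/-- The fixed algebra of the central sequence algebra. -/
abbrev centFix (α : G →* (A ≃⋆ₐ[ℂ] A)) (F : Filter ℕ) : StarSubalgebra ℂ (centSub A F) :=
  fixSub fun g => centAct F (α g)

variable (α : G →* (A ≃⋆ₐ[ℂ] A)) (N : Subgroup G)

theorem centAct_eq_of_mem {F : Filter ℕ} {g g' : G} (h : g⁻¹ * g' ∈ N) {x : centSub A F}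
    (hx : x ∈ centFix (α.comp N.subtype) F) : centAct F (α g') x = centAct F (α g) x := by
  have h1 : centAct F (α (g⁻¹ * g')) x = x := mem_fixSub.1 hx ⟨_, h⟩
  conv_lhs => rw [show g' = g * (g⁻¹ * g') by group, map_mul, centAct_mul, h1]

variable [N.Normal]

/-- The action of the quotient on the classes fixed by the normal subgroup. -/
def fixAct (F : Filter ℕ) (q : G ⧸ N) :
    centFix (α.comp N.subtype) F →⋆ₐ[ℂ] centFix (α.comp N.subtype) F :=
  StarAlgHom.codRestrict ((centAct F (α q.out)).comp (centFix (α.comp N.subtype) F).subtype)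
    (centFix (α.comp N.subtype) F) (by
    rintro ⟨x, hx⟩
    show centAct F (α q.out) x ∈ _
    rw [mem_fixSub]
    intro n
    show centAct F (α (n : G)) (centAct F (α q.out) x) = _
    rw [← centAct_mul, ← map_mul]
    refine centAct_eq_of_mem α N ?_ hx
    have := (inferInstance : N.Normal).conj_mem _ n.2 q.out⁻¹
    simpa [mul_assoc] using this)

theorem fixAct_mk (F : Filter ℕ) (g : G) (x : centFix (α.comp N.subtype) F) :
    (fixAct α N F (g : G ⧸ N) x : centSub A F) = centAct F (α g) x := by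
  refine centAct_eq_of_mem α N ?_ x.2
  exact QuotientGroup.eq.1 (QuotientGroup.out_eq' (g : G ⧸ N)).symm

theorem fixAct_one (F : Filter ℕ) (x : centFix (α.comp N.subtype) F) :
    fixAct α N F 1 x = x := by
  refine Subtype.ext ?_
  rw [← QuotientGroup.mk_one, fixAct_mk, map_one, centAct_one]

theorem fixAct_mul (F : Filter ℕ) (q r : G ⧸ N) (x : centFix (α.comp N.subtype) F) :
    fixAct α N F (q * r) x = fixAct α N F q (fixAct α N F r x) := by
  induction q using QuotientGroup.induction_on with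
  | _ g =>
    induction r using QuotientGroup.induction_on with
    | _ h =>
      refine Subtype.ext ?_
      rw [← QuotientGroup.mk_mul, fixAct_mk, fixAct_mk, fixAct_mk, map_mul, centAct_mul]

/-- Passing to a finer filter on fixed central classes. -/
def fixMap {F F' : Filter ℕ} (h : F' ≤ F) :
    centFix (α.comp N.subtype) F →⋆ₐ[ℂ] centFix (α.comp N.subtype) F' :=
  StarAlgHom.codRestrict ((centMap h).comp (centFix (α.comp N.subtype) F).subtype)
    (centFix (α.comp N.subtype) F') (by
    rintro ⟨x, hx⟩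
    show centMap h x ∈ _
    rw [mem_fixSub]
    intro n
    rw [← centMap_centAct, mem_fixSub.1 hx n])

theorem fixMap_fixAct {F F' : Filter ℕ} (h : F' ≤ F) (q : G ⧸ N)
    (x : centFix (α.comp N.subtype) F) :
    fixMap α N h (fixAct α N F q x) = fixAct α N F' q (fixMap α N h x) :=
  Subtype.ext (centMap_centAct h (α q.out) x.1)

end Vale.Agent.P095
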