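import Vale.Agent.P095.Defs
import Vale.Agent.P095.Outer.Central
import Vale.Agent.P101.Colours
import Vale.Agent.P101.Piece
import Vale.Agent.P101.Orth.Pair
import Vale.Agent.P101.Core.Main

/-!
# P095: from the collapse of slots to invariant dimension drops

Invariant dimension drops for a normal subgroup extend to the whole group when the quotient is
locally finite, provided that slots collapse.
-/

noncomputable section

namespace Vale.Agent.P095

open Filter Topology BoundedContinuousFunction Vale.Agent.P101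

universe u v w

attribute [local instance] centOrder centStarOrdered

/-- No finite group action with invariant state admits arbitrarily many square-zero families with
commuting translates. -/
def CollapseStatement : Prop :=
  ∀ {G : Type v} [Group G] [Fintype G] {B : Type u} [CStarAlgebra B] [PartialOrder B]
    [StarOrderedRing B] (S : Setup G B) {N : ℕ} {δ : ℝ}, 0 < δ →
    (∀ m : ℕ, ∃ X : Fin m → Fin N → B, (∀ s, SqZeroFamily δ (X s)) ∧
      ∀ s t, s ≠ t → ∀ g h i j, StarCommute (S.act g (X s i)) (S.act h (X t j))) → False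

variable {A : Type u} [CStarAlgebra A]

/-- The dimension-drop relations bound both generators by one. -/
theorem norm_le_one_of_rel {B : Type u} [CStarAlgebra B] {y v : B}
    (h : star v * v = 1 - star y * y - y * star y) : ‖y‖ ≤ 1 ∧ ‖v‖ ≤ 1 := by
  let _ : PartialOrder B := CStarAlgebra.spectralOrder B
  let _ : StarOrderedRing B := CStarAlgebra.spectralOrderedRing B
  have e : (1 : B) = star v * v + star y * y + y * star y := by rw [h]; abel
  have key : ∀ z : B, star z * z ≤ 1 → ‖z‖ ≤ 1 := fun z hz => by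
    have h1 := (CStarAlgebra.norm_le_one_iff_of_nonneg _ (star_mul_self_nonneg z)).2 hz
    rw [CStarRing.norm_star_mul_self] at h1
    nlinarith [norm_nonneg z]
  refine ⟨key y ?_, key v ?_⟩ <;> rw [e]
  · exact le_trans (le_add_of_nonneg_left (star_mul_self_nonneg v))
      (le_add_of_nonneg_right (mul_star_self_nonneg y))
  · exact le_trans (le_add_of_nonneg_right (star_mul_self_nonneg y))
      (le_add_of_nonneg_right (mul_star_self_nonneg y))

/-- Elements satisfying the dimension-drop relations exclude characters. -/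
theorem isEmpty_hom_of_rel {B : Type u} [CStarAlgebra B] {y v : B} (h1 : y * y = 0)
    (h2 : star v * v = 1 - star y * y - y * star y) (h3 : y * star y * v = v) :
    IsEmpty (B →⋆ₐ[ℂ] ℂ) := by
  refine ⟨fun φ => ?_⟩
  have hy : φ y = 0 := mul_self_eq_zero.1 (by rw [← map_mul, h1, map_zero])
  have hv : φ v = 0 := by
    rw [← h3, map_mul, map_mul, hy, zero_mul, zero_mul]
  have := congrArg φ h2
  simp only [map_sub, map_mul, map_one, hy, hv, mul_zero, zero_mul, sub_zero] at this
  exact zero_ne_one this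

section Finite

variable {G : Type v} [Group G] (α : G →* (A ≃⋆ₐ[ℂ] A)) (N : Subgroup G)

/-- The fixed algebra of the subgroup has no characters along an ultrafilter. -/
theorem isEmpty_subgroupFix (h : HasInvariantDimensionDrop A (α.comp N.subtype))
    {ω : Filter ℕ} (hω : ω ≤ atTop) :
    IsEmpty (centFix (α.comp N.subtype) ω →⋆ₐ[ℂ] ℂ) := by
  obtain ⟨y, v, hy, hv, h1, h2, h3, hfix⟩ := h
  obtain ⟨Y, rfl, hY⟩ := exists_rep_of_isCentralSeq (hy.mono hω)
  obtain ⟨V, rfl, hV⟩ := exists_rep_of_isCentralSeq (hv.mono hω)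
  have mY : (⟨_, hY⟩ : centSub A ω) ∈ centFix (α.comp N.subtype) ω := mem_fixSub.2 fun n =>
    Subtype.ext (seqMk_eq_iff.2 ((hfix n).1.mono_left hω))
  have mV : (⟨_, hV⟩ : centSub A ω) ∈ centFix (α.comp N.subtype) ω := mem_fixSub.2 fun n =>
    Subtype.ext (seqMk_eq_iff.2 ((hfix n).2.mono_left hω))
  refine isEmpty_hom_of_rel (y := ⟨_, mY⟩) (v := ⟨_, mV⟩)
    (Subtype.ext (Subtype.ext ?_)) (Subtype.ext (Subtype.ext ?_)) (Subtype.ext (Subtype.ext ?_))
  · show seqMk A ω Y * seqMk A ω Y = 0
    rw [← map_mul]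
    exact seqMk_eq_zero.2 (h1.mono_left hω)
  · show star (seqMk A ω V) * seqMk A ω V =
      1 - star (seqMk A ω Y) * seqMk A ω Y - seqMk A ω Y * star (seqMk A ω Y)
    simp only [← map_one (seqMk A ω), ← map_star, ← map_mul, ← map_sub]
    exact seqMk_eq_iff.2 (h2.mono_left hω)
  · show seqMk A ω Y * star (seqMk A ω Y) * seqMk A ω V = seqMk A ω V
    simp only [← map_star, ← map_mul]
    exact seqMk_eq_iff.2 (h3.mono_left hω)

variable [N.Normal] [Countable N] [Finite (G ⧸ N)]

/-- The fixed algebra of the whole group has no characters along an ultrafilter. -/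
theorem isEmpty_fixSub_fixAct (hcol : CollapseStatement.{u, v})
    [TopologicalSpace.SeparableSpace A] (h : HasInvariantDimensionDrop A (α.comp N.subtype))
    (ω : Ultrafilter ℕ) (hω : (ω : Filter ℕ) ≤ atTop) :
    IsEmpty (fixSub (fixAct α N (ω : Filter ℕ)) →⋆ₐ[ℂ] ℂ) := by
  refine ⟨fun χ => ?_⟩
  letI : Fintype (G ⧸ N) := Fintype.ofFinite _
  obtain ⟨M, δ, x, hδ, hx⟩ := exists_sqZeroFamily (F := centFix (α.comp N.subtype) (ω : Filter ℕ))
    (isEmpty_subgroupFix α N h hω)
  refine hcol (charSetup (fixAct α N (ω : Filter ℕ)) (fixAct_mul α N _) (fixAct α N atTop)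
    (fixAct_one α N _) (fixAct_mul α N _) (fixMap α N hω) (fixMap_fixAct α N hω) χ)
    (N := M) hδ fun m => ?_
  obtain ⟨X, hX, hc, hfix⟩ := exists_translate_slots (fun q : G ⧸ N => α q.out)
    (fun n : N => α n) (sqZeroFamily_coe _ hx) (fun n j => mem_fixSub.1 (x j).2 n) m
  refine ⟨fun s j => ⟨X s j, mem_fixSub.2 fun n => hfix s n j⟩,
    fun s => sqZeroFamily_codRestrict _ (hX s) _, fun s t hst q r i j => ?_⟩
  obtain ⟨e1, e2⟩ := (hc s t hst i j).2 q r
  exact ⟨Subtype.ext e1, Subtype.ext e2⟩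

/-- Fixed central classes along `atTop` satisfying the dimension-drop relations. -/
theorem exists_fixed_rel (hcol : CollapseStatement.{u, v})
    [TopologicalSpace.SeparableSpace A] (h : HasInvariantDimensionDrop A (α.comp N.subtype)) :
    ∃ y v : centFix α atTop,
      y * y = 0 ∧ star v * v = 1 - star y * y - y * star y ∧ y * star y * v = v := by
  haveI : Countable G := Countable.of_equiv _ (Subgroup.groupEquivQuotientProdSubgroup (s := N)).symm
  set ω := hyperfilter ℕ with hω'
  have hω : (ω : Filter ℕ) ≤ atTop := Nat.hyperfilter_le_atTop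
  obtain ⟨M, δ, x, hδ, hx⟩ := exists_sqZeroFamily (F := fixSub (fixAct α N (ω : Filter ℕ)))
    (isEmpty_fixSub_fixAct α N hcol h ω hω)
  have hxfix : ∀ g j, centAct (ω : Filter ℕ) (α g) ((x j).1.1) = (x j).1.1 := fun g j => by
    rw [← fixAct_mk α N _ g (x j).1, mem_fixSub.1 (x j).2 (g : G ⧸ N)]
  obtain ⟨m, hm⟩ := core_of (orthN_of_orth orthStatement.{u})
    (piece_of_orthN (orthN_of_orth orthStatement.{u})) colours.{u} M δ hδ
  obtain ⟨X, hX, hc, hfix⟩ := exists_translate_slots (fun _ : Unit => (1 : A ≃⋆ₐ[ℂ] A))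
    (fun g : G => α g) (sqZeroFamily_coe _ (sqZeroFamily_coe _ hx)) hxfix m
  have hslots : IsSlots δ X := ⟨hX, fun s t hst i j => (hc s t hst i j).1⟩
  exact hm (centFix α atTop) _
    (hslots.codRestrict (centFix α atTop) fun s j => mem_fixSub.2 fun g => hfix s g j)

/-- Contractions in `A` which almost commute with given elements, are almost fixed by given group
elements, and almost satisfy the dimension-drop relations. -/
theorem exists_approx (hcol : CollapseStatement.{u, v}) [TopologicalSpace.SeparableSpace A]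
    (h : HasInvariantDimensionDrop A (α.comp N.subtype)) (s : Finset A) (t : Finset G) {ε : ℝ}
    (hε : 0 < ε) :
    ∃ y v : A, ‖y‖ ≤ 1 ∧ ‖v‖ ≤ 1 ∧
      (∀ a ∈ s, ‖a * y - y * a‖ < ε ∧ ‖a * v - v * a‖ < ε) ∧
      (∀ g ∈ t, ‖α g y - y‖ < ε ∧ ‖α g v - v‖ < ε) ∧
      ‖y * y‖ < ε ∧ ‖star v * v - (1 - star y * y - y * star y)‖ < ε ∧
      ‖y * star y * v - v‖ < ε := by
  obtain ⟨y, v, h1, h2, h3⟩ := exists_fixed_rel α N hcol h
  obtain ⟨hy, hv⟩ := norm_le_one_of_rel h2
  obtain ⟨Y, hY, hY1⟩ := exists_contraction_rep (x := ((y : centSub A atTop) : SeqQuot A atTop)) hy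
  obtain ⟨V, hV, hV1⟩ := exists_contraction_rep (x := ((v : centSub A atTop) : SeqQuot A atTop)) hv
  have e1 := congrArg Subtype.val (congrArg Subtype.val h1)
  have e2 := congrArg Subtype.val (congrArg Subtype.val h2)
  have e3 := congrArg Subtype.val (congrArg Subtype.val h3)
  push_cast at e1 e2 e3
  have hsmall : ∀ f : ℕ →ᵇ A, seqMk A atTop f = 0 → ∀ᶠ n in atTop, ‖f n‖ < ε := fun f hf =>
    (seqMk_eq_zero.1 hf).eventually (gt_mem_nhds hε)
  have hcY : ∀ a, ∀ᶠ n in atTop, ‖a * Y n - Y n * a‖ < ε := fun a =>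
    ((mem_centSub.1 (hY ▸ (y : centSub A atTop).2)) a).eventually (gt_mem_nhds hε)
  have hcV : ∀ a, ∀ᶠ n in atTop, ‖a * V n - V n * a‖ < ε := fun a =>
    ((mem_centSub.1 (hV ▸ (v : centSub A atTop).2)) a).eventually (gt_mem_nhds hε)
  have hgY : ∀ g, ∀ᶠ n in atTop, ‖α g (Y n) - Y n‖ < ε := fun g => by
    refine hsmall (seqComp (α g).toStarAlgHom Y - Y) ?_
    rw [map_sub, ← seqAct_mk, hY, sub_eq_zero]
    exact congrArg Subtype.val (mem_fixSub.1 y.2 g)
  have hgV : ∀ g, ∀ᶠ n in atTop, ‖α g (V n) - V n‖ < ε := fun g => by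
    refine hsmall (seqComp (α g).toStarAlgHom V - V) ?_
    rw [map_sub, ← seqAct_mk, hV, sub_eq_zero]
    exact congrArg Subtype.val (mem_fixSub.1 v.2 g)
  obtain ⟨n, hn⟩ := ((s.eventually_all.2 fun a _ => (hcY a).and (hcV a)).and
    ((t.eventually_all.2 fun g _ => (hgY g).and (hgV g)).and
    ((hsmall (Y * Y) (by rw [map_mul, hY]; exact e1)).and
    ((hsmall (star V * V - (1 - star Y * Y - Y * star Y)) (by
        simp only [map_sub, map_mul, map_star, map_one, hY, hV, sub_eq_zero]; exact e2)).and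
    (hsmall (Y * star Y * V - V) (by
        simp only [map_sub, map_mul, map_star, hY, hV, sub_eq_zero]; exact e3)))))).exists
  exact ⟨Y n, V n, hY1 n, hV1 n, hn⟩

end Finite

/-- If a normal subgroup with locally finite quotient has invariant central dimension drops, then
so does the whole countable group, provided that slots collapse. -/
theorem hasInvariantDimensionDrop_of_collapse {G : Type w} [Group G] [Countable G]
    (hcol : CollapseStatement.{u, w}) [TopologicalSpace.SeparableSpace A]
    (α : G →* (A ≃⋆ₐ[ℂ] A)) (N : Subgroup G) [N.Normal]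
    (hfin : ∀ s : Finset (G ⧸ N),
      (Subgroup.closure (s : Set (G ⧸ N)) : Set (G ⧸ N)).Finite)
    (h : HasInvariantDimensionDrop A (α.comp N.subtype)) : HasInvariantDimensionDrop A α := by
  classical
  obtain ⟨e, he⟩ := exists_surjective_nat G
  obtain ⟨a, ha⟩ := TopologicalSpace.exists_dense_seq A
  let η : ℕ → ℝ := fun n => 1 / ((n : ℝ) + 1)
  have hη : ∀ n, 0 < η n := fun n => by positivity
  have hη0 : Tendsto η atTop (𝓝 0) := tendsto_one_div_add_atTop_nhds_zero_nat
  have hstep : ∀ n, ∃ y v : A, ‖y‖ ≤ 1 ∧ ‖v‖ ≤ 1 ∧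
      (∀ p ≤ n, ‖a p * y - y * a p‖ < η n ∧ ‖a p * v - v * a p‖ < η n) ∧
      (∀ p ≤ n, ‖α (e p) y - y‖ < η n ∧ ‖α (e p) v - v‖ < η n) ∧
      ‖y * y‖ < η n ∧ ‖star v * v - (1 - star y * y - y * star y)‖ < η n ∧
      ‖y * star y * v - v‖ < η n := by
    intro n
    let S : Finset (G ⧸ N) := (Finset.range (n + 1)).image fun p => (e p : G ⧸ N)
    let K : Subgroup (G ⧸ N) := Subgroup.closure (S : Set (G ⧸ N))
    have hK : Finite K := (hfin S).to_subtype
    let H : Subgroup G := K.comap (QuotientGroup.mk' N)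
    let π : H →* K := ((QuotientGroup.mk' N).comp H.subtype).codRestrict K fun x => x.2
    have hQ : Finite (H ⧸ π.ker) := Finite.of_injective _ (QuotientGroup.kerLift_injective π)
    have hker : ∀ x : π.ker, ((x : H) : G) ∈ N := fun x =>
      (QuotientGroup.eq_one_iff _).1 (congrArg Subtype.val (MonoidHom.mem_ker.1 x.2))
    have h' : HasInvariantDimensionDrop A ((α.comp H.subtype).comp π.ker.subtype) := by
      obtain ⟨y, v, hy, hv, h1, h2, h3, hf⟩ := h
      exact ⟨y, v, hy, hv, h1, h2, h3, fun x => hf ⟨_, hker x⟩⟩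
    have hmem : ∀ p ≤ n, e p ∈ H := fun p hp => Subgroup.subset_closure
      (Finset.mem_image_of_mem (fun p => (e p : G ⧸ N)) (by simpa using hp))
    let t : Finset H := ((Finset.range (n + 1)).image e).subtype (· ∈ H)
    obtain ⟨y, v, hy, hv, hc, hg, hrel⟩ := exists_approx (α.comp H.subtype) π.ker hcol h'
      ((Finset.range (n + 1)).image a) t (hη n)
    refine ⟨y, v, hy, hv, fun p hp => hc _ (Finset.mem_image_of_mem a (by simpa using hp)),
      fun p hp => hg ⟨e p, hmem p hp⟩ ?_, hrel⟩
    exact Finset.mem_subtype.2 (Finset.mem_image_of_mem e (by simpa using hp))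
  choose y v hy hv hc hg h1 h2 h3 using hstep
  have hcent : ∀ z : ℕ → A, (∀ n, ‖z n‖ ≤ 1) →
      (∀ n, ∀ p ≤ n, ‖a p * z n - z n * a p‖ < η n) → IsCentralSeq A atTop z := by
    refine fun z hz hzc => ⟨⟨1, hz⟩, fun b => ?_⟩
    rw [Metric.tendsto_nhds]
    intro ε hε
    obtain ⟨p, hp⟩ := ha.exists_dist_lt b (show (0 : ℝ) < ε / 4 by positivity)
    filter_upwards [eventually_ge_atTop p, hη0.eventually (gt_mem_nhds (half_pos hε))] with n hn1 hn2
    rw [Real.dist_eq, sub_zero, abs_of_nonneg (norm_nonneg _)]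
    have h := hzc n p hn1
    rw [dist_eq_norm] at hp
    have e1 : ‖(b - a p) * z n‖ ≤ ε / 4 * 1 :=
      (norm_mul_le _ _).trans (mul_le_mul hp.le (hz n) (norm_nonneg _) (by positivity))
    have e2 : ‖z n * (b - a p)‖ ≤ 1 * (ε / 4) :=
      (norm_mul_le _ _).trans (mul_le_mul (hz n) hp.le (norm_nonneg _) zero_le_one)
    rw [show b * z n - z n * b = ((b - a p) * z n - z n * (b - a p)) + (a p * z n - z n * a p) by
      noncomm_ring]
    refine (norm_add_le _ _).trans_lt ?_
    have e3 := norm_sub_le ((b - a p) * z n) (z n * (b - a p))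
    linarith
  have lim : ∀ f : ℕ → A, (∀ᶠ n in atTop, ‖f n‖ ≤ η n) →
      Tendsto (fun n => ‖f n‖) atTop (𝓝 0) := fun f hf =>
    squeeze_zero' (Eventually.of_forall fun n => norm_nonneg _) hf hη0
  refine ⟨y, v, hcent y hy fun n p hp => (hc n p hp).1, hcent v hv fun n p hp => (hc n p hp).2,
    lim _ (Eventually.of_forall fun n => (h1 n).le), lim _ (Eventually.of_forall fun n => (h2 n).le),
    lim _ (Eventually.of_forall fun n => (h3 n).le), fun g => ?_⟩
  obtain ⟨p, rfl⟩ := he g
  exact ⟨lim _ ((eventually_ge_atTop p).mono fun n hn => ((hg n p hn).1).le),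
    lim _ ((eventually_ge_atTop p).mono fun n hn => ((hg n p hn).2).le)⟩

/-- Central dimension drops are invariant for actions of countable groups with locally finite
image, provided that slots collapse. -/
theorem hasInvariantDimensionDrop_of_locallyFinite_image {G : Type w} [Group G] [Countable G]
    (hcol : CollapseStatement.{u, w}) [TopologicalSpace.SeparableSpace A]
    (hdd : HasCentralDimensionDrop A) (α : G →* (A ≃⋆ₐ[ℂ] A))
    (hfin : ∀ s : Finset (G ⧸ α.ker),
      (Subgroup.closure (s : Set (G ⧸ α.ker)) : Set (G ⧸ α.ker)).Finite) :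
    HasInvariantDimensionDrop A α := by
  obtain ⟨y, v, hy, hv, h1, h2, h3⟩ := hdd
  refine hasInvariantDimensionDrop_of_collapse hcol α α.ker hfin
    ⟨y, v, hy, hv, h1, h2, h3, fun n => ?_⟩
  have e : (α.comp α.ker.subtype) n = 1 := n.2
  simp [e]

/-- Central dimension drops are invariant for actions of countable locally finite groups,
provided that slots collapse. -/
theorem hasInvariantDimensionDrop_of_locallyFinite {G : Type w} [Group G] [Countable G]
    (hcol : CollapseStatement.{u, w}) [TopologicalSpace.SeparableSpace A]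
    (hdd : HasCentralDimensionDrop A) (α : G →* (A ≃⋆ₐ[ℂ] A))
    (hfin : ∀ s : Finset G, (Subgroup.closure (s : Set G) : Set G).Finite) :
    HasInvariantDimensionDrop A α := by
  classical
  refine hasInvariantDimensionDrop_of_locallyFinite_image hcol hdd α fun s => ?_
  obtain ⟨t, ht⟩ : ∃ t : Finset G, t.image (QuotientGroup.mk' α.ker) = s :=
    ⟨s.image Quotient.out, by ext; simp⟩
  rw [← ht, Finset.coe_image, ← MonoidHom.map_closure, Subgroup.coe_map]
  exact (hfin t).image _

end Vale.Agent.P095
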